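import Vale.Agent.N189.Main

open MeasureTheory
open scoped ENNReal
open Vale.Agent.P189W88 Vale.Agent.N189

/-- Weakly mixing free actions of one group can have different costs; the index formula for the
cost fails for subgroups of finite index. -/
theorem Vale.Agent.Results.P189.A0WeakMixing.result :
    (∀ K : ℕ, ∃ (Γ : Type) (_ : Group Γ), Group.IsFinitelyPresented Γ ∧
      ∀ j : ℕ, j ≤ K → ∃ c ∈ weakMixingCosts Γ, c ∈ Set.Icc (1 + j : ℝ≥0∞) (1 + 81 * j)) ∧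
    (∃ (Γ : Type) (_ : Group Γ), Countable Γ ∧ ⊤ ∈ weakMixingCosts Γ ∧
      ∀ j : ℕ, ∃ c ∈ weakMixingCosts Γ, c ∈ Set.Icc (1 + j : ℝ≥0∞) (1 + 81 * j)) ∧
    ∃ (Γ : Type) (_ : Group Γ) (X : Type) (_ : MeasurableSpace X) (_ : StandardBorelSpace X)
      (μ : Measure X) (_ : IsProbabilityMeasure μ) (α : Action Γ μ),
      Group.IsFinitelyPresented Γ ∧ α.Free ∧ 82 / 81 ≤ Cost μ α.rel ∧
      ∀ n : ℕ, 1 ≤ n → ∃ H : Subgroup Γ, H.index = 3 * n ∧ IsWeaklyMixing (restrict α H) ∧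
        Cost μ (restrict α H).rel ≤ 2 :=
  Vale.Agent.N189.main.2
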